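/-
helper74 — S0505 (row 327, Track D2): leaf D of helper91's blueprint — the parameters
`t = ⌈√n⌉₊`, `r = ⌈n / t⌉₊` and the real size bound.  Pure Mathlib; same names and signatures
as `Crest/Agent/Helper91/S0505/Blueprint.lean`.
-/
import Mathlib

set_option autoImplicit false

namespace Crest.Agent.Helper74.S0505

/-- Basic facts about `t = ⌈√n⌉₊` and `r = ⌈n / t⌉₊` for `n ≥ 1`. -/
theorem params_aux (n : ℕ) (hn : 1 ≤ n) :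
    Real.sqrt n ≤ (⌈Real.sqrt n⌉₊ : ℝ) ∧ (⌈Real.sqrt n⌉₊ : ℝ) < Real.sqrt n + 1 ∧
      1 ≤ ⌈Real.sqrt n⌉₊ ∧ ⌈Real.sqrt n⌉₊ ≤ n ∧
      1 ≤ ⌈(n : ℝ) / ⌈Real.sqrt n⌉₊⌉₊ ∧
      ⌈(n : ℝ) / ⌈Real.sqrt n⌉₊⌉₊ ≤ ⌈Real.sqrt n⌉₊ ∧
      n ≤ ⌈(n : ℝ) / ⌈Real.sqrt n⌉₊⌉₊ * ⌈Real.sqrt n⌉₊ := by
  have hx1 : (1 : ℝ) ≤ (n : ℝ) := by exact_mod_cast hn
  have hx0 : (0 : ℝ) < (n : ℝ) := by linarith
  have hs0 : 0 < Real.sqrt n := Real.sqrt_pos.mpr hx0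
  have hs1 : Real.sqrt n ≤ (⌈Real.sqrt n⌉₊ : ℝ) := Nat.le_ceil _
  have hs2 : (⌈Real.sqrt n⌉₊ : ℝ) < Real.sqrt n + 1 := Nat.ceil_lt_add_one hs0.le
  have ht1 : 1 ≤ ⌈Real.sqrt n⌉₊ := Nat.one_le_iff_ne_zero.mpr (by
    intro h
    rw [Nat.ceil_eq_zero] at h
    linarith)
  have ht0 : (0 : ℝ) < (⌈Real.sqrt n⌉₊ : ℝ) := by exact_mod_cast ht1
  have htn : ⌈Real.sqrt n⌉₊ ≤ n := by
    apply Nat.ceil_le.mpr
    rw [Real.sqrt_le_iff]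
    refine ⟨hx0.le, ?_⟩
    nlinarith
  have hq0 : 0 < (n : ℝ) / ⌈Real.sqrt n⌉₊ := div_pos hx0 ht0
  have hr1 : 1 ≤ ⌈(n : ℝ) / ⌈Real.sqrt n⌉₊⌉₊ := Nat.one_le_iff_ne_zero.mpr (by
    intro h
    rw [Nat.ceil_eq_zero] at h
    linarith)
  have hsq : Real.sqrt n * Real.sqrt n = n := Real.mul_self_sqrt hx0.le
  have hrt : ⌈(n : ℝ) / ⌈Real.sqrt n⌉₊⌉₊ ≤ ⌈Real.sqrt n⌉₊ := by
    apply Nat.ceil_le.mpr
    rw [div_le_iff₀ ht0]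
    nlinarith
  have hnrt : n ≤ ⌈(n : ℝ) / ⌈Real.sqrt n⌉₊⌉₊ * ⌈Real.sqrt n⌉₊ := by
    have h1 : (n : ℝ) / ⌈Real.sqrt n⌉₊ ≤ (⌈(n : ℝ) / ⌈Real.sqrt n⌉₊⌉₊ : ℝ) := Nat.le_ceil _
    rw [div_le_iff₀ ht0] at h1
    exact_mod_cast h1
  exact ⟨hs1, hs2, ht1, htn, hr1, hrt, hnrt⟩

/-- Leaf D, first half. -/
theorem params (n : ℕ) (hn : 2 ≤ n) :
    1 ≤ ⌈Real.sqrt n⌉₊ ∧ 1 ≤ ⌈(n : ℝ) / ⌈Real.sqrt n⌉₊⌉₊ ∧
      n ≤ ⌈(n : ℝ) / ⌈Real.sqrt n⌉₊⌉₊ * ⌈Real.sqrt n⌉₊ := by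
  obtain ⟨-, -, h1, -, h2, -, h3⟩ := params_aux n (by omega)
  exact ⟨h1, h2, h3⟩

/-- The case `n = 2` of the size bound: `t = 2`, `r = 1`, size `30 ≤ 2 ^ (√2 + 4)`. -/
theorem size_bound_real_two :
    ((2 * 2 ^ 3 + ⌈((2 : ℕ) : ℝ) / ⌈Real.sqrt (2 : ℕ)⌉₊⌉₊ * 2 ^ 2 +
          ⌈((2 : ℕ) : ℝ) / ⌈Real.sqrt (2 : ℕ)⌉₊⌉₊ * 2 ^ (⌈Real.sqrt (2 : ℕ)⌉₊ + 1) +
          2 ^ (⌈((2 : ℕ) : ℝ) / ⌈Real.sqrt (2 : ℕ)⌉₊⌉₊ - 1) + 1 : ℕ) : ℝ) ≤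
      ((2 : ℕ) : ℝ) ^ (Real.sqrt (2 : ℕ) + 4) := by
  have hc : ((2 : ℕ) : ℝ) = (2 : ℝ) := by norm_num
  have hs1 : (1 : ℝ) < Real.sqrt (2 : ℕ) := by
    rw [hc, Real.lt_sqrt (by norm_num)]
    norm_num
  have hs2 : Real.sqrt (2 : ℕ) ≤ 2 := by
    rw [hc, Real.sqrt_le_iff]
    norm_num
  have ht : ⌈Real.sqrt (2 : ℕ)⌉₊ = 2 := by
    rw [Nat.ceil_eq_iff (by norm_num)]
    constructor
    · have : ((2 - 1 : ℕ) : ℝ) = 1 := by norm_num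
      rw [this]
      exact hs1
    · have : ((2 : ℕ) : ℝ) = 2 := by norm_num
      rw [this] at hs2 ⊢
      exact hs2
  have hr : ⌈((2 : ℕ) : ℝ) / ⌈Real.sqrt (2 : ℕ)⌉₊⌉₊ = 1 := by
    rw [ht]
    norm_num
  rw [hr, ht]
  have h5 : ((2 : ℕ) : ℝ) ^ (5 : ℝ) ≤ ((2 : ℕ) : ℝ) ^ (Real.sqrt (2 : ℕ) + 4) :=
    Real.rpow_le_rpow_of_exponent_le (by norm_num) (by linarith)
  have h5' : ((2 : ℕ) : ℝ) ^ (5 : ℝ) = 32 := by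
    have : ((2 : ℕ) : ℝ) ^ (5 : ℝ) = ((2 : ℕ) : ℝ) ^ (5 : ℕ) := by
      rw [← Real.rpow_natCast]
      norm_num
    rw [this]
    norm_num
  rw [h5'] at h5
  refine le_trans ?_ h5
  norm_num

/-- Leaf D, second half: the size of the circuit is at most `n ^ (√n + 4)`. -/
theorem size_bound_real (n : ℕ) (hn : 2 ≤ n) :
    ((2 * n ^ 3 + ⌈(n : ℝ) / ⌈Real.sqrt n⌉₊⌉₊ * n ^ 2 +
          ⌈(n : ℝ) / ⌈Real.sqrt n⌉₊⌉₊ * n ^ (⌈Real.sqrt n⌉₊ + 1) +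
          n ^ (⌈(n : ℝ) / ⌈Real.sqrt n⌉₊⌉₊ - 1) + 1 : ℕ) : ℝ) ≤
      (n : ℝ) ^ (Real.sqrt n + 4) := by
  rcases Nat.eq_or_lt_of_le hn with h2 | h3
  · subst h2
    exact size_bound_real_two
  · obtain ⟨hs1, hs2, ht1, htn, hr1, hrt, -⟩ := params_aux n (by omega)
    set s : ℝ := Real.sqrt n with hs
    set t : ℕ := ⌈s⌉₊ with ht
    set r : ℕ := ⌈(n : ℝ) / t⌉₊ with hr
    have hx3 : (3 : ℝ) ≤ (n : ℝ) := by exact_mod_cast h3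
    have hx0 : (0 : ℝ) < (n : ℝ) := by linarith
    have hx1 : (1 : ℝ) ≤ (n : ℝ) := by linarith
    have hsge1 : (1 : ℝ) ≤ s := by
      rw [hs]
      calc (1 : ℝ) = Real.sqrt 1 := Real.sqrt_one.symm
        _ ≤ Real.sqrt n := Real.sqrt_le_sqrt hx1
    -- `b = n ^ √n ≥ n ≥ 3`
    set b : ℝ := (n : ℝ) ^ s with hb
    have hb3 : (3 : ℝ) ≤ b := by
      have h1 : (n : ℝ) ^ (1 : ℝ) ≤ (n : ℝ) ^ s :=
        Real.rpow_le_rpow_of_exponent_le hx1 hsge1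
      rw [Real.rpow_one] at h1
      linarith
    have hb0 : 0 < b := by linarith
    -- the right-hand side
    have hrhs : (n : ℝ) ^ (s + 4) = b * (n : ℝ) ^ 4 := by
      rw [Real.rpow_add hx0]
      congr 1
      have : ((4 : ℕ) : ℝ) = (4 : ℝ) := by norm_num
      rw [← this, Real.rpow_natCast]
    rw [hrhs]
    -- the terms
    have hrn : (r : ℝ) ≤ (n : ℝ) := by exact_mod_cast hrt.trans htn
    have hr0 : (0 : ℝ) ≤ (r : ℝ) := Nat.cast_nonneg r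
    have hT3 : (n : ℝ) ^ (t + 1) ≤ b * (n : ℝ) ^ 2 := by
      have h1 : (n : ℝ) ^ (t + 1) = (n : ℝ) ^ (((t + 1 : ℕ) : ℝ)) := (Real.rpow_natCast _ _).symm
      have h2 : (n : ℝ) ^ (((t + 1 : ℕ) : ℝ)) ≤ (n : ℝ) ^ (s + 2) := by
        apply Real.rpow_le_rpow_of_exponent_le hx1
        push_cast
        linarith
      have h3' : (n : ℝ) ^ (s + 2) = b * (n : ℝ) ^ 2 := by
        rw [Real.rpow_add hx0]
        congr 1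
        have : ((2 : ℕ) : ℝ) = (2 : ℝ) := by norm_num
        rw [← this, Real.rpow_natCast]
      rw [h1]
      exact h2.trans (le_of_eq h3')
    have hT4 : (n : ℝ) ^ (r - 1) ≤ b := by
      have h1 : (n : ℝ) ^ (r - 1) = (n : ℝ) ^ (((r - 1 : ℕ) : ℝ)) := (Real.rpow_natCast _ _).symm
      rw [h1]
      apply Real.rpow_le_rpow_of_exponent_le hx1
      have h2 : ((r - 1 : ℕ) : ℝ) = (r : ℝ) - 1 := by
        rw [Nat.cast_sub hr1]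
        norm_num
      rw [h2]
      have h3' : (r : ℝ) ≤ (t : ℝ) := by exact_mod_cast hrt
      linarith
    have hn2 : (0 : ℝ) ≤ (n : ℝ) ^ 2 := by positivity
    have hn3 : (27 : ℝ) ≤ (n : ℝ) ^ 3 := by
      have : (3 : ℝ) ^ 3 ≤ (n : ℝ) ^ 3 := pow_le_pow_left₀ (by norm_num) hx3 3
      linarith
    have hpow : (0 : ℝ) ≤ (n : ℝ) ^ (t + 1) := by positivity
    push_cast
    have e2 : (r : ℝ) * (n : ℝ) ^ 2 ≤ (n : ℝ) ^ 3 := by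
      have : (r : ℝ) * (n : ℝ) ^ 2 ≤ (n : ℝ) * (n : ℝ) ^ 2 :=
        mul_le_mul_of_nonneg_right hrn hn2
      linarith [this, (by ring : (n : ℝ) * (n : ℝ) ^ 2 = (n : ℝ) ^ 3)]
    have e3 : (r : ℝ) * (n : ℝ) ^ (t + 1) ≤ b * (n : ℝ) ^ 3 := by
      have h1 : (r : ℝ) * (n : ℝ) ^ (t + 1) ≤ (n : ℝ) * (n : ℝ) ^ (t + 1) :=
        mul_le_mul_of_nonneg_right hrn hpow
      have h2 : (n : ℝ) * (n : ℝ) ^ (t + 1) ≤ (n : ℝ) * (b * (n : ℝ) ^ 2) :=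
        mul_le_mul_of_nonneg_left hT3 hx0.le
      linarith [h1, h2, (by ring : (n : ℝ) * (b * (n : ℝ) ^ 2) = b * (n : ℝ) ^ 3)]
    have e5 : b * (n : ℝ) ^ 4 = b * (n : ℝ) ^ 3 * (n : ℝ) := by ring
    have e6 : b * (n : ℝ) ^ 3 * 3 ≤ b * (n : ℝ) ^ 3 * (n : ℝ) :=
      mul_le_mul_of_nonneg_left hx3 (by positivity)
    have e7 : 3 * (n : ℝ) ^ 3 ≤ b * (n : ℝ) ^ 3 :=
      mul_le_mul_of_nonneg_right hb3 (by positivity)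
    have e8 : 27 * b ≤ b * (n : ℝ) ^ 3 := by
      have := mul_le_mul_of_nonneg_left hn3 hb0.le
      linarith
    linarith

end Crest.Agent.Helper74.S0505
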